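import Vale.Agent.Lib.P339.Defs

open scoped BigOperators
open Vale.Agent.Lib.P339

namespace Vale.Agent.Results.P339.A_ntw_gadget

/-- Decoding a right label to a Boolean value: its low bit. -/
private def bit (t : Fin 6) : Bool := decide (t.val % 2 = 1)

/-- The assignment decoded from a labeling of the right vertices. -/
private def decoded {n m : ℕ} (B : Fin n ⊕ Fin m → Fin 6) : Fin n → Bool :=
  fun w => bit (B (Sum.inl w))

private lemma xor_bit_sign : ∀ (s : Bool) (t : Fin 6), xor (bit (signLabel s t)) s = bit t := by
  decide

private lemma gadget_finite_check : ∀ ℓA ℓB : Fin (2 * 6), projS ℓA = projT ℓB →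
    notTwo (bit (proj1 ℓA)) (bit (proj2 ℓA)) (bit (projZ ℓB)) = true := by
  decide

/-- If all five constraints of the gadget of `i` are satisfied, the decoded assignment
satisfies constraint `i`. -/
private lemma sat_of_all_five {n m : ℕ} (I : NTWInstance n m)
    (A : Fin m × Bool → Fin (2 * 6)) (B : Fin n ⊕ Fin m → Fin 6) (i : Fin m)
    (h : ∀ j : Fin 5, gadgetMap I (i, j) (A (gadgetU (i, j))) = B (gadgetV I (i, j))) :
    I.sat (decoded B) i = true := by
  have h0 := h 0
  have h1 := h 1
  have h2 := h 2
  have h3 := h 3
  have h4 := h 4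
  simp only [gadgetMap, gadgetU, gadgetV] at h0 h1 h2 h3 h4
  norm_num at h0 h1 h2 h3 h4
  have hS : projS (A (i, false)) = projT (A (i, true)) := by rw [h2, h3]
  have := gadget_finite_check _ _ hS
  have e0 : litValue (decoded B) (I i 0) = bit (proj1 (A (i, false))) := by
    simp only [litValue, decoded]
    rw [← h0, xor_bit_sign]
  have e1 : litValue (decoded B) (I i 1) = bit (proj2 (A (i, false))) := by
    simp only [litValue, decoded]
    rw [← h1, xor_bit_sign]
  have e2 : litValue (decoded B) (I i 2) = bit (projZ (A (i, true))) := by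
    simp only [litValue, decoded]
    rw [← h4, xor_bit_sign]
  simp only [NTWInstance.sat]
  rw [e0, e1, e2]
  exact this

/-- Per-constraint count: the weight of satisfied gadget edges. -/
private lemma sum_five_le {n m : ℕ} (I : NTWInstance n m)
    (A : Fin m × Bool → Fin (2 * 6)) (B : Fin n ⊕ Fin m → Fin 6) (i : Fin m) (c : ℝ) (hc : 0 ≤ c) :
    (∑ j : Fin 5, if gadgetMap I (i, j) (A (gadgetU (i, j))) = B (gadgetV I (i, j)) then c else 0)
      ≤ if I.sat (decoded B) i = true then 5 * c else 4 * c := by
  by_cases hs : I.sat (decoded B) i = true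
  · rw [if_pos hs]
    calc (∑ j : Fin 5, if gadgetMap I (i, j) (A (gadgetU (i, j))) = B (gadgetV I (i, j))
            then c else 0)
        ≤ ∑ _j : Fin 5, c := Finset.sum_le_sum (fun j _ => by split_ifs <;> linarith)
      _ = 5 * c := by simp
  · rw [if_neg hs]
    have : ¬ ∀ j : Fin 5, gadgetMap I (i, j) (A (gadgetU (i, j))) = B (gadgetV I (i, j)) :=
      fun h => hs (sat_of_all_five I A B i h)
    obtain ⟨j₀, hj₀⟩ := not_forall.mp this
    have hsplit := Finset.add_sum_erase Finset.univ
      (fun j : Fin 5 => if gadgetMap I (i, j) (A (gadgetU (i, j))) = B (gadgetV I (i, j))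
        then c else 0) (Finset.mem_univ j₀)
    rw [← hsplit]
    simp only [if_neg hj₀, zero_add]
    calc (∑ j ∈ Finset.univ.erase j₀,
            if gadgetMap I (i, j) (A (gadgetU (i, j))) = B (gadgetV I (i, j)) then c else 0)
        ≤ ∑ _j ∈ Finset.univ.erase j₀, c := Finset.sum_le_sum (fun j _ => by split_ifs <;> linarith)
      _ = 4 * c := by
        simp [Finset.card_erase_of_mem, Finset.card_univ]

private lemma satWeight_le {n m : ℕ} (I : NTWInstance n m) (hm : 0 < m)
    (A : Fin m × Bool → Fin (2 * 6)) (B : Fin n ⊕ Fin m → Fin 6) :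
    (gadgetGame I hm).satWeight A B ≤ 1 - (1 - I.frac (decoded B)) / 5 := by
  have hm' : (0 : ℝ) < m := by exact_mod_cast hm
  set c : ℝ := 1 / (5 * (m : ℝ)) with hc
  have hc0 : 0 ≤ c := by positivity
  have h1 : (gadgetGame I hm).satWeight A B =
      ∑ i : Fin m, ∑ j : Fin 5,
        if gadgetMap I (i, j) (A (gadgetU (i, j))) = B (gadgetV I (i, j)) then c else 0 := by
    simp only [TwoToOneGame.satWeight, gadgetGame]
    rw [Fintype.sum_prod_type]
    rfl
  rw [h1]
  have h2 : (∑ i : Fin m, ∑ j : Fin 5,
        if gadgetMap I (i, j) (A (gadgetU (i, j))) = B (gadgetV I (i, j)) then c else 0)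
      ≤ ∑ i : Fin m, if I.sat (decoded B) i = true then 5 * c else 4 * c :=
    Finset.sum_le_sum (fun i _ => sum_five_le I A B i c hc0)
  have h3 : (∑ i : Fin m, if I.sat (decoded B) i = true then 5 * c else 4 * c) =
      4 * c * m + c * ((Finset.univ.filter fun i => I.sat (decoded B) i = true).card : ℝ) := by
    have : ∀ i : Fin m, (if I.sat (decoded B) i = true then 5 * c else 4 * c) =
        4 * c + if I.sat (decoded B) i = true then c else 0 := by
      intro i; split_ifs <;> ring
    simp only [this, Finset.sum_add_distrib, Finset.sum_const, Finset.card_univ, Fintype.card_fin,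
      nsmul_eq_mul, Finset.sum_ite]
    simp
    ring
  refine h2.trans (le_of_eq ?_)
  rw [h3]
  simp only [NTWInstance.frac, hc]
  field_simp
  ring

private def label (v : Bool) : Fin 6 := if v then 1 else 0

private def realA (x y : Bool) : Fin (2 * 6) :=
  match x, y with
  | false, false => 0
  | false, true => 1
  | true, false => 2
  | true, true => 3

private def realB (x y z : Bool) : Fin (2 * 6) :=
  match x, y, z with
  | false, false, false => 0
  | false, false, true => 1
  | true, true, _ => 3
  | _, _, _ => 2

private lemma real_check1 : ∀ (s v y : Bool),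
    signLabel s (proj1 (realA (xor v s) y)) = label v := by decide
private lemma real_check2 : ∀ (s v x : Bool),
    signLabel s (proj2 (realA x (xor v s))) = label v := by decide
private lemma real_check3 : ∀ (x y z : Bool), notTwo x y z = true →
    projT (realB x y z) = projS (realA x y) := by decide
private lemma real_check4 : ∀ (s v x y : Bool), notTwo x y (xor v s) = true →
    signLabel s (projZ (realB x y (xor v s))) = label v := by decide

private lemma value_bdd {n m : ℕ} (I : NTWInstance n m) (hm : 0 < m) :
    BddAbove (Set.range fun L : (Fin m × Bool → Fin (2 * 6)) × (Fin n ⊕ Fin m → Fin 6) =>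
      (gadgetGame I hm).satWeight L.1 L.2) :=
  Set.Finite.bddAbove (Set.finite_range _)

private lemma satWeight_le_one {n m : ℕ} (I : NTWInstance n m) (hm : 0 < m)
    (A : Fin m × Bool → Fin (2 * 6)) (B : Fin n ⊕ Fin m → Fin 6) :
    (gadgetGame I hm).satWeight A B ≤ 1 := by
  have hsum := (gadgetGame I hm).μ_sum
  have hnn := (gadgetGame I hm).μ_nonneg
  calc (gadgetGame I hm).satWeight A B
      ≤ ∑ e, (gadgetGame I hm).μ e := by
        refine Finset.sum_le_sum (fun e _ => ?_)
        split_ifs
        · exact le_rfl
        · exact hnn e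
    _ = 1 := hsum

/-- **Gap-preserving gadget from Max-NTW to 2-to-1 games with perfect completeness.**
For every Max-NTW instance `I`: the game `gadgetGame I hm` (alphabets `Fin 12` and `Fin 6`,
two left vertices, one auxiliary right vertex and five equally weighted constraints for each
constraint of `I`) has value `1` if `I` is satisfiable, and value at most `1 - (1 - val I) / 5`
always. In particular `val I ≤ 5/8 + ε` implies that the game has value at most `37/40 + ε/5`. -/
theorem result {n m : ℕ} (hm : 0 < m) (I : NTWInstance n m) :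
    ((∃ a : Fin n → Bool, ∀ i : Fin m, I.sat a i = true) → (gadgetGame I hm).value = 1) ∧
    (gadgetGame I hm).value ≤ 1 - (1 - I.value) / 5 ∧
    (∀ ε : ℝ, I.value ≤ 5 / 8 + ε → (gadgetGame I hm).value ≤ 37 / 40 + ε / 5) := by
  have hbound : (gadgetGame I hm).value ≤ 1 - (1 - I.value) / 5 := by
    refine ciSup_le (fun L => (satWeight_le I hm L.1 L.2).trans ?_)
    have : I.frac (decoded L.2) ≤ I.value :=
      le_ciSup (f := fun a => I.frac a) (Set.Finite.bddAbove (Set.finite_range _)) _
    linarith
  refine ⟨?_, hbound, ?_⟩
  · rintro ⟨a, ha⟩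
    refine le_antisymm (ciSup_le fun L => satWeight_le_one I hm L.1 L.2) ?_
    -- the labeling built from a satisfying assignment
    let vals : Fin m → Fin 3 → Bool := fun i k => litValue a (I i k)
    let A : Fin m × Bool → Fin (2 * 6) := fun p =>
      if p.2 then realB (vals p.1 0) (vals p.1 1) (vals p.1 2)
      else realA (vals p.1 0) (vals p.1 1)
    let B : Fin n ⊕ Fin m → Fin 6 := fun r =>
      match r with
      | Sum.inl w => label (a w)
      | Sum.inr i => projS (realA (vals i 0) (vals i 1))
    have hall : ∀ e : Fin m × Fin 5, gadgetMap I e (A (gadgetU e)) = B (gadgetV I e) := by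
      rintro ⟨i, j⟩
      have hsat : notTwo (vals i 0) (vals i 1) (vals i 2) = true := ha i
      fin_cases j
      · exact real_check1 _ _ _
      · exact real_check2 _ _ _
      · rfl
      · exact real_check3 _ _ _ hsat
      · exact real_check4 _ _ _ _ hsat
    have hw : (gadgetGame I hm).satWeight A B = 1 := by
      have : (gadgetGame I hm).satWeight A B = ∑ e, (gadgetGame I hm).μ e := by
        refine Finset.sum_congr rfl (fun e _ => ?_)
        exact if_pos (hall e)
      rw [this, (gadgetGame I hm).μ_sum]
    rw [← hw]
    exact le_ciSup (value_bdd I hm) (A, B)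
  · intro ε hε
    linarith

end Vale.Agent.Results.P339.A_ntw_gadget
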